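import Vale.Agent.Lib.P194.Fin
import Vale.Agent.Lib.P194.Defs

/-!
# Stable finiteness of group algebras of extensions with residually finite-p kernel

`K` is a field of characteristic `p > 0`.  (1) If `N` is a normal subgroup of `G` which is
residually finite-p and `K[G/N]` is stably finite, then `K[G]` is stably finite.  (2) Hence `K[G]`
is stably finite for all towers of such extensions over residually finite groups.
-/

namespace Vale.Agent.Results.P194.ResiduallyPKernel

open Vale.Agent.P194

universe u v

theorem result (p : ℕ) [Fact p.Prime] (K : Type v) [Field K] [CharP K p] :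
    (∀ (G : Type u) [Group G] (N : Subgroup G) [N.Normal], ResiduallyP p N →
      IsStablyFiniteRing (MonoidAlgebra K (G ⧸ N)) → IsStablyFiniteRing (MonoidAlgebra K G)) ∧
    (∀ (m : ℕ) (G : Type u) [Group G], Tower p m G →
      IsStablyFiniteRing (MonoidAlgebra K G)) := by
  have h1 : ∀ (G : Type u) [Group G] (N : Subgroup G) [N.Normal], ResiduallyP p N →
      IsStablyFiniteRing (MonoidAlgebra K (G ⧸ N)) →
      IsStablyFiniteRing (MonoidAlgebra K G) := by
    intro G _ N _ hN hst
    exact ext_stab p K G N hN
  refine ⟨h1, ?_⟩
  intro m
  induction m with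
  | zero => exact fun G _ hG => rf_stab K G hG
  | succ m ih =>
    intro G _ hG
    obtain ⟨N, hN, hres, hT⟩ := hG
    exact h1 G N hres (ih (G ⧸ N) hT)

end Vale.Agent.Results.P194.ResiduallyPKernel
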